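import Crest.Agent.X262.Gwb.Defs
import Crest.Agent.X262.Gc84.Defs
import Crest.Agent.X262.Chn.Defs
import Crest.Agent.X262.Form88.Snc

/-!
# Row 262, GW seam (helper13): the master space, the statements, the glue

* `Sit K`  : three models `Yp, Ym ≥ Y` of `K` and three hyperplane sections;
* `Mst s m₁ r` : the space `B` over `Y × P ^ r` with the ends `Yp × P ^ r`, `Ym × P ^ r`;
* the statements `GcStmt`, `H42Stmt`, `JkStmt`, `MstStmt`, `KillStmt`, `EndStmt`, `NumStmt`,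
  `ConcStmt`, `ReadStmt`, `OneStmt`, `BlStmt`;
* `transfer`, `root_of` : they give `Chn.RootStmt`.
-/

set_option autoImplicit false

noncomputable section

namespace Crest.Agent.X262.Gwb

open Crest.Agent.X277 Crest.Agent.X277.Lef Crest.Agent.X277.AN.G1 Crest.Agent.X277.BD
  Crest.Agent.X277.BD.Br
open Crest.Agent.X277.Res.Out (Coords)
open Crest.Agent.X262.Coh Crest.Agent.X262.Ult
open Crest.Agent.X262.Chn (Ge mor Bw Om NI up Roots RootStmt)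
open Crest.Agent.X262.Gc84 (In Me)
open Crest.Agent.X262.Form88 (Iso)

variable {K : Type} [Field K] [Algebra ℂ K]

variable (K) in
/-- the situation -/
structure Sit where
  /-- the base -/
  Y : PModel ℂ K
  /-- the trivial end -/
  Yp : PModel ℂ K
  /-- the concave end -/
  Ym : PModel ℂ K
  hp : Ge Yp Y
  hm : Ge Ym Y
  /-- a hyperplane section of `Y` -/
  g : K
  /-- a hyperplane section of `Yp` -/
  gp : K
  /-- a hyperplane section of `Ym` -/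
  gm : K
  g_mem : g ≠ 0 ∧ g ∈ (oP Y).Sec
  gp_mem : gp ≠ 0 ∧ gp ∈ (oP Yp).Sec
  gm_mem : gm ≠ 0 ∧ gm ∈ (oP Ym).Sec

/-- the points of `Y` over which nothing is claimed -/
def Sit.Bad (s : Sit K) (y : Pts s.Y) : Prop :=
  ¬ At (oP s.Y) y s.g ∨
    (∃ x, (mor s.hp).map x = y ∧ (¬ Iso (mor s.hp) x ∨ ¬ At (oP s.Yp) x s.gp)) ∨
    ∃ x, (mor s.hm).map x = y ∧ (¬ Iso (mor s.hm) x ∨ ¬ At (oP s.Ym) x s.gm)

/-- the concave end: `i` is the fibre of the factor `C = (g₀, U ⊗ μ)` over a coordinate point, and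
every other factor is pulled back from `Y` or from `S` on it -/
structure Pur {Y S B : SV} (i : Hom (Y.prod S) B) (m : Emb B) (n : Emb Y) where
  /-- `none` is `C`, `some none` is `S` -/
  e : Option (Option n.J) ≃ m.J
  /-- the factor `U` -/
  jU : n.J
  rsS : ∃ p : Tup (Y.prod S).F, p.Reg _ ∧ Rs i (m.T (e (some none))) p ∧ Rs (snd Y S) (ownT S) p
  rsY : ∀ k, ∃ p : Tup (Y.prod S).F, p.Reg _ ∧ Rs i (m.T (e (some (some k)))) p ∧
    Rs (fst Y S) (n.T k) p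
  /-- the coordinates of `C` -/
  f : Option ((m.T (e (some (some jU)))).io × (m.T (e (some none))).io) ≃ (m.T (e none)).io
  cv : ∀ a b, (m.T (e none)).y (f (some (a, b))) =
    (m.T (e (some (some jU)))).y a * (m.T (e (some none))).y b
  dv : IsDv i ((m.T (e none)).bd - ((m.T (e (some (some jU)))).bd + (m.T (e (some none))).bd))

/-- the master space -/
structure Mst (s : Sit K) (m₁ : Emb (sv s.Ym)) (r : ℕ) where
  /-- `P ^ r` -/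
  S : SV
  /-- `P ^ (r + 1)` -/
  P : SV
  /-- the space -/
  B : SV
  projS : IsProj S
  dimS : S.P.N = r
  projP : IsProj P
  /-- the embedding -/
  m : Emb B
  /-- the projection -/
  ζ : Hom B (sv s.Y)
  /-- the projection -/
  σ : Hom B S
  /-- the contraction of the concave end -/
  γ : Hom B P
  /-- the factor of `ζ` -/
  jA : m.J
  /-- the factor of `σ` -/
  jS : m.J
  /-- the factor of `γ` -/
  jG : m.J
  rsA : Rs ζ (ownT (sv s.Y)) (m.T jA)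
  rsS : Rs σ (ownT S) (m.T jS)
  rsG : Rs γ (ownT P) (m.T jG)
  bim : Bim (pair ζ γ)
  /-- the trivial end -/
  ip : Hom ((sv s.Yp).prod S) B
  /-- the concave end -/
  im : Hom ((sv s.Ym).prod S) B
  ip_ζ : ∀ x, ζ.map (ip.map x) = (mor s.hp).map ((fst _ S).map x)
  ip_σ : ∀ x, σ.map (ip.map x) = (snd _ S).map x
  im_ζ : ∀ x, ζ.map (im.map x) = (mor s.hm).map ((fst _ S).map x)
  im_σ : ∀ x, σ.map (im.map x) = (snd _ S).map x
  /-- the coordinate which cuts out the trivial end -/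
  t : (m.T jG).io
  t_ne : (m.T jG).y t ≠ 0
  dvp : IsDv ip ((m.T jG).bd - pr ℂ ((m.T jG).y t))
  gp : ∃ a, LPb ip (m.T jG).bd a ∧ LPb (snd _ S) S.h a
  /-- the restriction of the embedding to `Ym` -/
  n : Emb (sv s.Ym)
  /-- the structure of the concave end -/
  pur : Pur im m n
  pur_S : pur.e (some none) = jS
  pur_U : ∀ k, (m₁.T k).bd = (n.T pur.jU).bd
  exc : ∀ w : B.Pt, ¬ Iso (pair ζ γ) w → w ∈ Set.range im.map ∨ s.Bad (ζ.map w)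

variable (C : Th)

namespace Mst

variable {s : Sit K} {m₁ : Emb (sv s.Ym)} {r : ℕ} (M : Mst s m₁ r)

/-- `D'` -/
abbrev A : C.H M.B := M.m.h C M.jA

/-- `λ` -/
abbrev lam : C.H M.B := M.m.h C M.jS

/-- `G` -/
abbrev G : C.H M.B := M.m.h C M.jG

/-- the span of the `λ ^ i ζ^* x` and `λ ^ i G ζ^* x` -/
abbrev W (x : C.H (sv s.Y)) : Submodule ℂ (C.H M.B) := Me ℂ (M.lam C) (M.G C) (C.pb M.ζ x)

end Mst

/-- the hyperplane section `g = 0` carries no class of type `(3,1)` -/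
def Jk (P : PModel ℂ K) (g : K) : Prop :=
  ∀ (Z : SV) (v : Hom Z (sv P)), (∀ z, ¬ At (oP P) (v.map z) g) → ∀ x ∈ Om C P, C.pb v x = 0

/-- the cohomological hypotheses on a situation -/
structure Sit.Ok (s : Sit K) : Prop where
  dim : BD.dim ℂ K = 4
  h42 : ∀ P : PModel ℂ K, C.typ (sv P) 4 2 = ⊥
  jk : Jk C s.Y s.g
  jkp : Jk C s.Yp s.gp
  jkm : Jk C s.Ym s.gm

/-! ### the statements -/

/-- the abstract theorem (55, 84) -/
def GcStmt : Prop :=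
  ∀ {J H : Type} [Fintype J] [DecidableEq J] [CommRing H] [Algebra ℂ H] (Q : Hyc ℂ J H)
    (A : Submodule ℂ H) (h : J → H) (jA jG jS : J) (e : H),
    (∀ j, Q.IsDiv (h j) fun d => (d j : ℂ)) → (∀ j, h j ∈ A) → 1 ∈ A →
    (∀ d l, In A l → 2 ≤ Multiset.card l → Q.op d l ∈ A) →
    IsNilpotent (h jS) → IsNilpotent (h jA) → h jG * h jG = h jS * h jG → h jA * e = 0 →
    Q.IsLin e (fun d => d jA = 0) → (∀ a ∈ A, e * a ∈ Me ℂ (h jS) (h jG) e) →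
    (∃ d : J →₀ ℕ, d jA = 0 ∧ d jS = 0 ∧ d jG = 1 ∧ ∃ y t : ℂ, y ≠ 0 ∧
      ∃ z ∈ Me ℂ (h jS) (h jG) e,
        Q.op d ((h jG * e) ::ₘ h jG ::ₘ 0) = y • e + t • (h jG * e) + h jS * z) →
    (∀ d l, d jS = 0 → d jG = 0 → In A l → l ≠ 0 →
      Q.op d ((h jG * e) ::ₘ l) ∈ Me ℂ (h jS) (h jG) e) →
    ∀ d l, d jS = 0 → In A l → l ≠ 0 → ∀ x ∈ Me ℂ (h jS) (h jG) e,
      Q.op d (x ::ₘ l) ∈ Me ℂ (h jS) (h jG) e

/-- rational fourfolds have no classes of type `(4,2)` -/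
def H42Stmt : Prop :=
  ∀ (K : Type) [Field K] [Algebra ℂ K], Nonempty (Top.Hyp 4 0 K) →
    BD.dim ℂ K = 4 ∧ ∀ P : PModel ℂ K, C.typ (sv P) 4 2 = ⊥

/-- Bertini and weak Lefschetz -/
def JkStmt : Prop :=
  ∀ (K : Type) [Field K] [Algebra ℂ K] (P : PModel ℂ K), BD.dim ℂ K = 4 →
    C.typ (sv P) 4 2 = ⊥ → ∃ g, (g ≠ 0 ∧ g ∈ (oP P).Sec) ∧ Jk C P g

/-- further properties of master spaces (fixed by the owners of `NumStmt`, `ReadStmt`) -/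
abbrev Ext : Type 1 :=
  ∀ {K : Type} [Field K] [Algebra ℂ K] {s : Sit K} {m₁ : Emb (sv s.Ym)} {r : ℕ},
    Mst s m₁ r → Prop

/-- master spaces exist (2) -/
def MstStmt (X : Ext) : Prop :=
  ∀ (K : Type) [Field K] [Algebra ℂ K] (s : Sit K), BD.dim ℂ K = 4 →
    ∃ m₁ : Emb (sv s.Ym), Subsingleton m₁.J ∧ ∀ r, 0 < r → ∃ M : Mst s m₁ r, X M

/-- KILL and the relations between the classes (52) -/
def KillStmt : Prop :=
  ∀ (K : Type) [Field K] [Algebra ℂ K] (s : Sit K), s.Ok C → ∀ (m₁ : Emb (sv s.Ym)) (r : ℕ)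
    (M : Mst s m₁ r), IsNilpotent (M.lam C) ∧ IsNilpotent (M.A C) ∧
      M.G C * M.G C = M.lam C * M.G C ∧ ∀ x ∈ Om C s.Y, M.A C * C.pb M.ζ x = 0 ∧
      (∀ a ∈ AA C M.B, C.pb M.ζ x * a ∈ M.W C x) ∧
      ∀ a ∈ AA C M.B, ∀ p ∈ C.dg M.B M.B.dim, C.itg M.B (p * a) ≠ 0 → ∃ y t : ℂ, y ≠ 0 ∧
        ∃ z ∈ M.W C x, C.pb M.ζ x * a =
          y • C.pb M.ζ x + t • (M.G C * C.pb M.ζ x) + M.lam C * z

variable {C} (G : Gw C)

/-- the trivial end (36) -/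
def EndStmt : Prop :=
  ∀ (K : Type) [Field K] [Algebra ℂ K] (s : Sit K), s.Ok C → ∀ (m₁ : Emb (sv s.Ym)) (r : ℕ)
    (M : Mst s m₁ r), ∀ x ∈ Om C s.Y, G.Eig _ (C.pb (mor s.hp) x) →
    ∀ d l, d M.jS = 0 → d M.jG = 0 → In (AA C M.B) l → l ≠ 0 →
      G.op M.m d ((M.G C * C.pb M.ζ x) ::ₘ l) ∈ M.W C x

/-- the number of the general fibre (25) -/
def NumStmt (X : Ext) : Prop :=
  ∀ (K : Type) [Field K] [Algebra ℂ K] (s : Sit K), s.Ok C → ∀ (m₁ : Emb (sv s.Ym)) (r : ℕ)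
    (M : Mst s m₁ r), X M → ∃ d : M.m.J →₀ ℕ, d M.jA = 0 ∧ d M.jS = 0 ∧ d M.jG = 1 ∧
      ∃ p ∈ C.dg M.B M.B.dim, C.itg M.B (p * G.op M.m d (M.G C ::ₘ M.G C ::ₘ 0)) ≠ 0

/-- **concavity**: the top coefficient in `λ`; an insertion is `(s, c, a)` with
`i^* s = c + λ a` -/
def ConcStmt : Prop :=
  ∀ {Y S B : SV} (i : Hom (Y.prod S) B) (m : Emb B) (n : Emb Y) (p : Pur i m n), IsProj S →
    ∀ (d : m.J →₀ ℕ) (d' : n.J →₀ ℕ), d (p.e none) = 0 → d (p.e (some none)) = 0 →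
    (∀ k, d (p.e (some (some k))) = d' k) → d' p.jU ≠ 0 →
    ∀ (x : C.H B × C.H Y × C.H Y) (l : Multiset (C.H B × C.H Y × C.H Y)),
    (∀ z ∈ x ::ₘ l, C.pb i z.1 =
      C.pb (fst Y S) z.2.1 + C.pb (snd Y S) (C.hc S) * C.pb (fst Y S) z.2.2) →
    S.P.N = d' p.jU + Multiset.card l → ∃ c : ℂ, c ≠ 0 ∧
      C.itg B (x.1 * G.op m d (l.map fun z => z.1)) =
        c * C.itg Y (x.2.2 * G.op n d' (l.map fun z => z.2.2))

/-- the concave end -/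
def ReadStmt (X : Ext) : Prop :=
  ∀ (K : Type) [Field K] [Algebra ℂ K] (s : Sit K), s.Ok C → ∀ (m₁ : Emb (sv s.Ym)),
    Subsingleton m₁.J → ∀ (r : ℕ) (M : Mst s m₁ r), X M → ∀ x ∈ Om C s.Y,
    (∀ d l, d M.jS = 0 → In (AA C M.B) l → l ≠ 0 → ∀ y ∈ M.W C x,
      G.op M.m d (y ::ₘ l) ∈ M.W C x) →
    ∀ (d : m₁.J →₀ ℕ) (k : m₁.J) (l : Multiset (C.H (sv s.Ym))), d k ≠ 0 → In (AA C _) l →
      l ≠ 0 → r = d k + Multiset.card l + 1 →
      ∃ c : ℂ, G.op m₁ d (C.pb (mor s.hm) x ::ₘ l) = c • C.pb (mor s.hm) x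

/-- one embedding and the degrees `d ≠ 0` are enough (36) -/
def OneStmt : Prop :=
  ∀ (Y : SV) (m : Emb Y), Y.dim = 4 → C.typ Y 4 2 = ⊥ → ∀ x ∈ C.typ Y 3 1,
    (∀ d l, d ≠ 0 → In (AA C Y) l → l ≠ 0 → ∃ c : ℂ, G.op m d (x ::ₘ l) = c • x) → G.Eig Y x

/-- the blow-up of a surface (53) -/
def BlStmt : Prop :=
  ∀ (K : Type) [Field K] [Algebra ℂ K], Nonempty (Top.Hyp 4 0 K) → ∃ Sp : Bw K → Prop,
    (∀ (V : PModel ℂ K) (O : Subalgebra ℂ K) (t : Fin 2 → K), Qt.SmZ V O 4 2 → Coords O t →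
      mxf ℂ ![1, t 0, t 1] ∈ On V → ∃ b, Sp b ∧ Ge b.lo V ∧ b.i.p.O = O) ∧
    ∀ b, Sp b → b.LH C ∧ (∀ x ∈ b.blk C, NI C (sv b.hi) x → G.Eig _ x) ∧
      ∀ x ∈ Om C b.hi, G.Eig _ x → NI C (sv b.hi) x →
        x ∈ up C b.ge (Om C b.lo) ∨ x ∈ b.blk C

/-- the operations keep the classes of type `(p, p)` -/
def OpAStmt : Prop :=
  ∀ (Y : SV) (m : Emb Y), (∀ j, m.h C j ∈ AA C Y) ∧ 1 ∈ AA C Y ∧
    ∀ d l, In (AA C Y) l → 2 ≤ Multiset.card l → G.op m d l ∈ AA C Y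

/-- the own coordinates are an embedding -/
def OwnStmt : Prop := ∀ Y : SV, ∃ n : Pre Y, ∀ k, n.T k = ownT Y

/-! ### the glue -/

variable {G}

/-- **GC** -/
theorem transfer (hT : C.TYP) (hG : G.Ax) {X : Ext} (h1 : GcStmt) (h2 : MstStmt X)
    (h3 : KillStmt C) (h4 : EndStmt G) (h5 : NumStmt G X) (h6 : ReadStmt G X) (h7 : OneStmt G)
    (h8 : OpAStmt G) (h9 : OwnStmt) (s : Sit K) (hs : s.Ok C) {x : C.H (sv s.Y)}
    (hx : x ∈ Om C s.Y) (h : G.Eig _ (C.pb (mor s.hp) x)) : G.Eig _ (C.pb (mor s.hm) x) := by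
  obtain ⟨m₁, hm₁, hM⟩ := h2 K s hs.dim
  refine h7 _ m₁ hs.dim (hs.h42 _) _ (hT.pb _ x hx) fun d l hd hl hl0 => ?_
  obtain ⟨k, hk⟩ := Finsupp.ne_iff.1 hd
  obtain ⟨M, hX⟩ := hM (d k + Multiset.card l + 1) (Nat.succ_pos _)
  refine h6 K s hs m₁ hm₁ _ M hX x hx ?_ d k l hk hl hl0 rfl
  obtain ⟨k1, k2, k3, k4⟩ := h3 K s hs m₁ _ M
  obtain ⟨k5, k6, k7⟩ := k4 x hx
  obtain ⟨a1, a2, a3⟩ := h8 M.B M.m
  obtain ⟨n, hn⟩ := h9 (sv s.Y)
  have lin : ((G.Q M.m).IsLin (C.pb M.ζ x) fun d => d M.jA = 0) := fun d hd =>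
    hG.mov M.m M.ζ n (fun _ => M.jA) (fun k => (hn k).symm ▸ M.rsA) x d fun _ => hd
  refine h1 (G.Q M.m) (AA C M.B) (M.m.h C) M.jA M.jG M.jS _ (hG.dvz M.m) a1 a2 a3 k1 k2 k3 k5
    lin k6 ?_ (h4 K s hs m₁ _ M x hx h)
  obtain ⟨d, d1, d2, d3, p, hp, hne⟩ := h5 K s hs m₁ _ M hX
  refine ⟨d, d1, d2, d3, ?_⟩
  rw [mul_comm (M.G C), lin d d1]
  simpa only [mul_comm (M.G C)] using k7 _ (a3 d _ (fun a ha => by
    simp only [Multiset.mem_cons, Multiset.notMem_zero, or_false, or_self] at ha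
    exact ha ▸ a1 _) (by simp)) p hp hne

theorem ge_rfl (U : PModel ℂ K) : Ge U U := oP_mem

/-- **roots** -/
theorem root_of (hM : C.MAN) (hT : C.TYP) (hG : G.Ax) {X : Ext} (h1 : GcStmt) (h2 : MstStmt X)
    (h3 : KillStmt C) (h4 : EndStmt G) (h5 : NumStmt G X) (h6 : ReadStmt G X) (h7 : OneStmt G)
    (h8 : OpAStmt G) (h9 : OwnStmt) (h10 : H42Stmt C) (h11 : JkStmt C) (h12 : BlStmt G) :
    RootStmt C := by
  intro K _ _ hK
  obtain ⟨hd, h42⟩ := h10 K hK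
  choose g hg hj using fun P : PModel ℂ K => h11 K P hd (h42 P)
  obtain ⟨Sp, e1, e2⟩ := h12 K hK
  have hid : ∀ (V : PModel ℂ K) (x : C.H (sv V)), C.pb (mor (ge_rfl V)) x = x := fun V x => by
    rw [hM.pb_congr (mor (ge_rfl V)) (idH (sv V)) rfl, hM.pb_id]
  refine ⟨⟨fun U => {x | G.Eig (sv U) x}, Sp, e1, fun b hb => (e2 b hb).1, fun {U V} h x hx _ => ?_,
    fun b hb => (e2 b hb).2.1, fun b hb => (e2 b hb).2.2⟩⟩
  constructor
  · intro h'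
    have := transfer hT hG h1 h2 h3 h4 h5 h6 h7 h8 h9
      ⟨V, U, V, h, ge_rfl V, g V, g U, g V, hg V, hg U, hg V⟩ ⟨hd, h42, hj V, hj U, hj V⟩ hx h'
    rwa [hid] at this
  · intro h'
    exact transfer hT hG h1 h2 h3 h4 h5 h6 h7 h8 h9
      ⟨V, V, U, ge_rfl V, h, g V, g V, g U, hg V, hg V, hg U⟩ ⟨hd, h42, hj V, hj V, hj U⟩ hx
      (by rw [hid]; exact h')

end Crest.Agent.X262.Gwb
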