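import Crest.Agent.X262.Gwb.Mst
import Crest.Agent.X262.Coh.Basic

/-!
# Row 262, GW seam (helper13): Hodge types of the operations

* `wt C Y w`, `op_wt` : the operators keep the weight `p - q`;
* `opA`               : `OpAStmt`;
* `op_Om`             : on a fourfold without `(4,2)` and `(2,0)` classes they keep `H^{3,1}`;
* `eig_of_perp`       : a criterion for eigenvectors.
-/

set_option autoImplicit false

noncomputable section

namespace Crest.Agent.X262.Gwb

open Crest.Agent.X262.Coh Crest.Agent.X262.Ult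
open Crest.Agent.X262.Gc84 (In)

variable (C : Th)

/-- the classes of weight `w = p - q` -/
def wt (Y : SV) (w : ℤ) : Submodule ℂ (C.H Y) :=
  ⨆ pq : {pq : ℕ × ℕ // (pq.1 : ℤ) - pq.2 = w}, C.typ Y pq.1.1 pq.1.2

variable {C} {Y : SV}

theorem mem_wt {p q : ℕ} {w : ℤ} (h : (p : ℤ) - q = w) {a : C.H Y} (ha : a ∈ C.typ Y p q) :
    a ∈ wt C Y w := Submodule.mem_iSup_of_mem ⟨(p, q), h⟩ ha

theorem wt_ind {w : ℤ} {P : C.H Y → Prop} (h0 : P 0)
    (h1 : ∀ p q : ℕ, (p : ℤ) - q = w → ∀ a ∈ C.typ Y p q, P a)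
    (h2 : ∀ a b, P a → P b → P (a + b)) {a : C.H Y} (ha : a ∈ wt C Y w) : P a :=
  Submodule.iSup_induction _ (motive := P) ha (fun pq => h1 _ _ pq.2) h0 h2

theorem wt_le {w : ℤ} {W : Submodule ℂ (C.H Y)}
    (h : ∀ p q : ℕ, (p : ℤ) - q = w → C.typ Y p q ≤ W) : wt C Y w ≤ W :=
  iSup_le fun pq => h _ _ pq.2

theorem wt_zero : wt C Y 0 = AA C Y :=
  le_antisymm (wt_le fun p q h => by
      obtain rfl : p = q := by omega
      exact le_iSup (fun p => C.typ Y p p) p)
    (iSup_le fun p _ ha => mem_wt (sub_self _) ha)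

variable (hM : C.MAN) (hP : C.PD) (hT : C.TYP)
include hM hT

theorem itg_wt {w w' : ℤ} (h : w + w' ≠ 0) {a b : C.H Y} (ha : a ∈ wt C Y w)
    (hb : b ∈ wt C Y w') : C.itg Y (a * b) = 0 :=
  wt_ind (P := fun a => C.itg Y (a * b) = 0) (by simp) (fun p q h1 a ha =>
    wt_ind (P := fun b => C.itg Y (a * b) = 0) (by simp)
      (fun p' q' h2 b hb => hT.itg_typ hM (by omega) (hT.mul Y ha hb))
      (fun x y hx hy => by rw [mul_add, map_add, hx, hy, add_zero]) hb)
    (fun x y hx hy => by rw [add_mul, map_add, hx, hy, add_zero]) ha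

include hP

theorem mem_wt_of {w : ℤ} {z : C.H Y} (hz : ∀ p q : ℕ, w + ((p : ℤ) - q) ≠ 0 →
    ∀ y ∈ C.typ Y p q, C.itg Y (y * z) = 0) : z ∈ wt C Y w :=
  hP.mem_of_orth (A := wt C Y) (eq_top_iff.2 ((hT.iSup_typ Y).ge.trans (iSup_le fun pq _ ha =>
      Submodule.mem_iSup_of_mem _ (mem_wt rfl ha)))) (R := fun i k => i + k = 0)
    (fun _ _ h _ ha _ hb => itg_wt hM hT h ha hb) (fun i k h1 h2 => by omega)
    fun k hk y hy => wt_ind (P := fun y => C.itg Y (z * y) = 0) (by simp)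
      (fun p q h y hy => by rw [mul_comm]; exact hz p q (h ▸ hk) y hy)
      (fun x y hx hy => by rw [mul_add, map_add, hx, hy, add_zero]) hy

variable {G : Gw C} (hG : G.TYP)
include hG

theorem op_wt (m : Emb Y) (d : m.J →₀ ℕ) {l : Multiset (C.H Y)} (hl : In (AA C Y) l) {w : ℤ}
    {x : C.H Y} (hx : x ∈ wt C Y w) : G.op m d (x ::ₘ l) ∈ wt C Y w :=
  wt_ind (P := fun x => G.op m d (x ::ₘ l) ∈ wt C Y w)
    (by rw [Gw.op, Hyc.op_zero]; exact zero_mem _)
    (fun p q h x hx => mem_wt_of hM hP hT fun p' q' h' y hy => hG m d x y l hx hy hl (by omega))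
    (fun x y hx hy => by rw [Gw.op, Hyc.add]; exact add_mem hx hy) hx

theorem opA : OpAStmt G := fun Y m =>
  ⟨fun j => Submodule.mem_iSup_of_mem 1 (hT.c1 Y _ (m.reg j).2),
    Submodule.mem_iSup_of_mem 0 (hT.one_mem hM hP Y), fun d l hl h2 => by
      obtain ⟨x, hx⟩ := Multiset.card_pos_iff_exists_mem.1 (lt_of_lt_of_le two_pos h2)
      obtain ⟨l, rfl⟩ := Multiset.exists_cons_of_mem hx
      rw [← wt_zero]
      exact op_wt hM hP hT hG m d (fun a ha => hl a (Multiset.mem_cons_of_mem ha))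
        (wt_zero (C := C) (Y := Y) ▸ hl x hx)⟩

omit hG in
theorem typ20 (hd : Y.dim = 4) (h42 : C.typ Y 4 2 = ⊥) : C.typ Y 2 0 = ⊥ :=
  (Submodule.eq_bot_iff _).2 fun z hz => hT.eq_zero_of_typ hM hP hz fun i k hi hk y hy => by
    obtain rfl : i = 2 := by omega
    obtain rfl : k = 4 := by omega
    have h1 := hT.cj Y y hy
    rw [h42, Submodule.mem_bot] at h1
    rw [← hM.cj_cj Y y, h1, map_zero, mul_zero, map_zero]

omit hG in
theorem wt_two (hd : Y.dim = 4) (h42 : C.typ Y 4 2 = ⊥) : wt C Y 2 = C.typ Y 3 1 :=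
  le_antisymm (wt_le fun p q h => by
      obtain rfl : p = q + 2 := by omega
      rcases (show q = 0 ∨ q = 1 ∨ q = 2 ∨ 2 < q by omega) with rfl | rfl | rfl | h
      · exact (typ20 hM hP hT hd h42).le.trans bot_le
      · exact le_rfl
      · exact h42.le.trans bot_le
      · exact (hT.gt Y q (by omega)).le.trans bot_le)
    fun _ ha => mem_wt (by norm_num) ha

theorem op_Om (hd : Y.dim = 4) (h42 : C.typ Y 4 2 = ⊥) (m : Emb Y) (d : m.J →₀ ℕ)
    {l : Multiset (C.H Y)} (hl : In (AA C Y) l) {x : C.H Y} (hx : x ∈ C.typ Y 3 1) :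
    G.op m d (x ::ₘ l) ∈ C.typ Y 3 1 := by
  rw [← wt_two hM hP hT hd h42] at hx ⊢
  exact op_wt hM hP hT hG m d hl hx

/-- it is enough to test against the classes of type `(1,3)` which kill `x` -/
theorem eig_of_perp (hd : Y.dim = 4) (h42 : C.typ Y 4 2 = ⊥) (m : Emb Y) (d : m.J →₀ ℕ)
    {l : Multiset (C.H Y)} (hl : In (AA C Y) l) {x : C.H Y} (hx : x ∈ C.typ Y 3 1)
    (h : ∀ w ∈ C.typ Y 1 3, x * w = 0 → C.itg Y (w * G.op m d (x ::ₘ l)) = 0) :
    ∃ c : ℂ, G.op m d (x ::ₘ l) = c • x := by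
  have hz := op_Om hM hP hT hG hd h42 m d hl hx
  set z := G.op m d (x ::ₘ l)
  obtain ⟨c, hc⟩ := Submodule.mem_span_singleton.1 (hP.mem_of_perp (W := ℂ ∙ x) (a := z)
    fun y hy => by
      have hy' := hy x (Submodule.mem_span_singleton_self x)
      obtain ⟨y₁, h1, y₂, h2, rfl⟩ := Submodule.mem_sup.1 (show y ∈ C.typ Y 1 3 ⊔
          ⨆ (pq : ℕ × ℕ) (_ : pq ≠ (1, 3)), C.typ Y pq.1 pq.2 by
        rw [← iSup_split_single (fun pq : ℕ × ℕ => C.typ Y pq.1 pq.2) (1, 3), hT.iSup_typ]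
        trivial)
      have key : ∀ u ∈ C.typ Y 3 1, C.itg Y (u * y₂) = 0 := fun u hu =>
        Submodule.iSup_induction _ (motive := fun b => C.itg Y (u * b) = 0) h2
          (fun pq b hb => by
            by_cases hi : pq = (1, 3)
            · rw [hi] at hb
              simp only [ne_eq, not_true_eq_false, iSup_false, Submodule.mem_bot] at hb
              simp [hb]
            · rw [iSup_pos hi] at hb
              exact hT.itg_typ hM (fun h => hi (Prod.ext (by simp only; omega)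
                (by simp only; omega))) (hT.mul Y hu hb))
          (by simp) fun x y hx hy => by rw [mul_add, map_add, hx, hy, add_zero]
      rw [mul_add, map_add, key x hx, add_zero] at hy'
      rw [mul_add, map_add, key z hz, add_zero, mul_comm]
      exact h y₁ h1 (hP.top_zero hM (hT.le Y (by omega) (hT.mul Y hx h1)) hy'))
  exact ⟨c, hc.symm⟩

end Crest.Agent.X262.Gwb
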