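import Crest.Agent.X262.Coh.Defs
import Crest.Agent.X262.Ult.Hyc

/-!
# Row 262, GW seam (helper13): class-level genus zero invariants of smooth projective varieties

* `Tup`, `Tup.Reg`, `Rs` : tuples of functions (maps to a projective space), restriction;
* `Pre Y` (closed embeddings in products of projective spaces), `Emb Y` (those of codimension
  `≥ 1` with factors of dimension `≥ 1`), `own`, `Pre.h` (hyperplane classes);
* `Gw C` : the operations `op m d l`, `Gw.Ax` : the formal axioms and `EMB`, `END`, `PROD`;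
* `Eig` : common eigenvectors (the roots), `Keeps` : invariant subspaces.
-/

set_option autoImplicit false

noncomputable section

namespace Crest.Agent.X262.Gwb

open Crest.Agent.X277 Crest.Agent.X277.Lef Crest.Agent.X277.AN.G1 Crest.Agent.X277.BD
  Crest.Agent.X277.BD.Br
open Crest.Agent.X262.Coh Crest.Agent.X262.Ult

/-! ### tuples and embeddings -/

/-- homogeneous coordinates of a rational map to a projective space -/
structure Tup (F : Type) where
  /-- the index set -/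
  io : Type
  [fin : Fintype io]
  [dec : DecidableEq io]
  /-- the coordinates -/
  y : io → F

attribute [instance] Tup.fin Tup.dec

/-- the divisor generated by the tuple -/
abbrev Tup.bd {F : Type} [Field F] [Algebra ℂ F] (t : Tup F) : BD ℂ F := mxf ℂ t.y

/-- the tuple is a morphism on `Y` -/
def Tup.Reg (Y : SV) (t : Tup Y.F) : Prop := (∃ i, t.y i ≠ 0) ∧ t.bd ∈ Y.On

/-- `t'` is the restriction (pull-back) of `t` along `μ`, up to a scalar and a renumbering -/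
def Rs {X Y : SV} (μ : Hom X Y) (t : Tup Y.F) (t' : Tup X.F) : Prop :=
  ∃ (e : t.io ≃ t'.io) (u : Y.F) (c : X.F), (∀ i, t.y i / u ∈ μ.p.O) ∧
    ∀ i, t'.y (e i) = c * μ.p.π (t.y i / u)

/-- the affine coordinates at the point `x` -/
def crdAt {Y : SV} {J : Type} (T : J → Tup Y.F) (x : Y.Pt) : Set Y.F :=
  {f | ∃ j i i', At (T j).bd x ((T j).y i') ∧ f = (T j).y i / (T j).y i'}

/-- a closed embedding in a product of projective spaces -/
structure Pre (Y : SV) where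
  /-- the factors -/
  J : Type
  [fin : Fintype J]
  [dec : DecidableEq J]
  /-- the tuples -/
  T : J → Tup Y.F
  reg : ∀ j, (T j).Reg Y
  emb : ∀ x : Y.Pt, ∀ g ∈ (lp x).O, ∃ a ∈ Algebra.adjoin ℂ (crdAt T x),
    ∃ c ∈ Algebra.adjoin ℂ (crdAt T x), ev c x ≠ 0 ∧ g * c = a

attribute [instance] Pre.fin Pre.dec

/-- an embedding for which the invariants are defined -/
structure Emb (Y : SV) extends Pre Y where
  nt : ∀ j, Nontrivial (T j).io
  cod : ∃ (q : MvPolynomial (Σ j, (T j).io) ℂ) (κ : J → ℕ), q ≠ 0 ∧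
    q.IsWeightedHomogeneous (fun v => (Pi.single v.1 1 : J → ℕ)) κ ∧
    MvPolynomial.aeval (fun v : Σ j, (T j).io => (T v.1).y v.2) q = 0

/-- the coordinates of the model -/
def ownT (Y : SV) : Tup Y.F := ⟨Fin (Y.P.N + 1), Y.P.y⟩

/-- projective space with its coordinates (the hypothesis of `Th.PN`) -/
def IsProj (X : SV) : Prop :=
  ∀ (m : ℕ) (q : MvPolynomial (Fin (X.P.N + 1)) ℂ), q.IsHomogeneous m →
    MvPolynomial.aeval X.P.y q = 0 → q = 0

variable (C : Th)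

/-- the hyperplane class of a factor -/
abbrev Pre.h {Y : SV} (m : Pre Y) (j : m.J) : C.H Y := C.c1 Y (m.T j).bd

/-- the classes of type `(p, p)` -/
def AA (Y : SV) : Submodule ℂ (C.H Y) := ⨆ p, C.typ Y p p

/-- Künneth formula for a projective space -/
def KUNP : Prop :=
  ∀ X Y : SV, IsProj X → ∀ z : C.H (Y.prod X),
    z ∈ Submodule.span ℂ {z | ∃ a b, z = C.pb (fst Y X) a * C.pb (snd Y X) b}

/-! ### invariants -/

/-- the genus zero operations: `∫ y · op m d l = ⟨y, l⟩_d` -/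
structure Gw where
  /-- the hypercommutative algebra of an embedded variety -/
  Q : ∀ {Y : SV} (m : Emb Y), Hyc ℂ m.J (C.H Y)

namespace Gw

variable {C} (G : Gw C)

/-- the operation -/
abbrev op {Y : SV} (m : Emb Y) (d : m.J →₀ ℕ) (l : Multiset (C.H Y)) : C.H Y := (G.Q m).op d l

/-- symmetry -/
def SYM : Prop := ∀ {Y : SV} (m : Emb Y) (d : m.J →₀ ℕ) (x y : C.H Y) (l : Multiset (C.H Y)),
  C.itg Y (y * G.op m d (x ::ₘ l)) = C.itg Y (x * G.op m d (y ::ₘ l))

/-- Hodge type -/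
def TYP : Prop := ∀ {Y : SV} (m : Emb Y) (d : m.J →₀ ℕ) {p q p' q' : ℕ} (x y : C.H Y)
  (l : Multiset (C.H Y)), x ∈ C.typ Y p q → y ∈ C.typ Y p' q' → (∀ a ∈ l, a ∈ AA C Y) →
  p + p' ≠ q + q' → C.itg Y (y * G.op m d (x ::ₘ l)) = 0

/-- there are no invariants with less than three insertions -/
def LOW : Prop := ∀ {Y : SV} (m : Emb Y) (d : m.J →₀ ℕ) (l : Multiset (C.H Y)),
  Multiset.card l < 2 → G.op m d l = 0

/-- string equation -/
def STR : Prop := ∀ {Y : SV} (m : Emb Y) (d : m.J →₀ ℕ) (l : Multiset (C.H Y)),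
  2 ≤ Multiset.card l → G.op m d (1 ::ₘ l) = 0

/-- divisor equation -/
def DIV : Prop := ∀ {Y : SV} (m : Emb Y) (j : m.J), (G.Q m).IsDiv (m.h C j) fun d => (d j : ℂ)

/-- curves contracted by `ζ` -/
def MOV : Prop := ∀ {Y Z : SV} (m : Emb Y) (ζ : Hom Y Z) (n : Pre Z) (g : n.J → m.J),
  (∀ k, Rs ζ (n.T k) (m.T (g k))) → ∀ c : C.H Z,
  (G.Q m).IsLin (C.pb ζ c) fun d => ∀ k, d (g k) = 0

/-- more factors refine the grading -/
def EMB : Prop := ∀ {Y : SV} (m₀ m : Emb Y) (g : m₀.J → m.J), Function.Injective g →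
  (∀ k, m₀.T k = m.T (g k)) → ∀ (d₀ : m₀.J →₀ ℕ) (l : Multiset (C.H Y)),
  ∃ s : Finset (m.J →₀ ℕ), (∀ d ∈ s, ∀ k, d (g k) = d₀ k) ∧
    (∀ d, (∀ k, d (g k) = d₀ k) → d ∉ s → G.op m d l = 0) ∧ G.op m₀ d₀ l = ∑ d ∈ s, G.op m d l

/-- a smooth hyperplane section in a factor of degree zero -/
def END : Prop := ∀ {D B : SV} (j : Hom D B) (m : Emb B) (n : Emb D) (e : n.J ≃ m.J),
  (∀ k, Rs j (m.T (e k)) (n.T k)) → ∀ (k₀ : m.J) (i₀ : (m.T k₀).io), (m.T k₀).y i₀ ≠ 0 →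
  IsDv j ((m.T k₀).bd - pr ℂ ((m.T k₀).y i₀)) → ∀ (d : m.J →₀ ℕ) (d' : n.J →₀ ℕ),
  (∀ k, d (e k) = d' k) → d k₀ = 0 → ∀ (b : C.H B) (l : Multiset (C.H B)),
  G.op m d ((m.h C k₀ * b) ::ₘ l) = C.push j (G.op n d' (C.pb j b ::ₘ l.map (C.pb j)))

/-- products, degree zero on the second factor -/
def PROD : Prop := ∀ {Y S : SV} (m : Emb Y) (n : Pre S) (p : Emb (Y.prod S))
  (e : m.J ⊕ n.J ≃ p.J), (∀ k, Rs (fst Y S) (m.T k) (p.T (e (.inl k)))) →
  (∀ k, Rs (snd Y S) (n.T k) (p.T (e (.inr k)))) → ∀ (d : m.J →₀ ℕ) (d' : p.J →₀ ℕ),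
  (∀ k, d' (e (.inl k)) = d k) → (∀ k, d' (e (.inr k)) = 0) →
  ∀ (a : C.H Y) (b : C.H S) (l : Multiset (C.H Y)),
  C.itg _ (C.pb (fst Y S) a * C.pb (snd Y S) b * G.op p d' (l.map (C.pb (fst Y S)))) =
    C.itg Y (a * G.op m d l) * C.itg S b

/-- the general axioms -/
structure Ax : Prop where
  sym : G.SYM
  typ : G.TYP
  low : G.LOW
  str : G.STR
  dvz : G.DIV
  mov : G.MOV
  emb : G.EMB
  hyp : G.END
  prod : G.PROD

/-- a common eigenvector of all operators -/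
def Eig (Y : SV) (x : C.H Y) : Prop :=
  ∀ (m : Emb Y) (d : m.J →₀ ℕ) (l : Multiset (C.H Y)), (∀ a ∈ l, a ∈ AA C Y) →
    ∃ c : ℂ, G.op m d (x ::ₘ l) = c • x

/-- the submodule `W` is kept by all operators of the embedding `m` of degree `d` with `P d` -/
def Keeps {Y : SV} (m : Emb Y) (P : (m.J →₀ ℕ) → Prop) (W : Submodule ℂ (C.H Y)) : Prop :=
  ∀ d, P d → ∀ l : Multiset (C.H Y), (∀ a ∈ l, a ∈ AA C Y) → ∀ x ∈ W, G.op m d (x ::ₘ l) ∈ W

end Gw

end Crest.Agent.X262.Gwb
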