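import Crest.Agent.X262.Gwb.Read
import Crest.Agent.X262.Bl53.Main
import Crest.Agent.X262.Gc84.Stmt
import Crest.Agent.X262.End36.Out
import Crest.Agent.X262.Jk79.Main
import Crest.Agent.X262.Kill52.Main
import Crest.Agent.X262.EndsCl.Exc
import Crest.Agent.X262.EndsCl.Lin
import Crest.Agent.X262.EndsRk.Main
import Crest.Agent.X262.Supj77.Main
import Crest.Agent.X262.Noc95.Main
import Crest.Agent.X262.BlLnk.Main
import Crest.Agent.X262.Lh39.Bw
import Crest.Agent.X262.Emb5.Main
import Crest.Agent.X262.EmbA.Main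
import Crest.Agent.X262.Eqi18.Main
import Crest.Agent.X262.Form88.All
import Crest.Agent.X262.PD.Hd
import Crest.Agent.X262.Vb.Ax0

/-!
# Row 262, GW layer (helper13): the assembly

* `root_gw`   : `RootStmt` from an abstract theory of invariants;
* `root_vir`  : the same for the invariants of a record `Vir`;
* `root_open` : the same from the statements which are still hypotheses.
-/

set_option autoImplicit false

noncomputable section

namespace Crest.Agent.X262.Gwb

open Crest.Agent.X262.Coh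

variable {C : Coh.Th}

/-- the roots, for abstract invariants -/
theorem root_gw (A : C.Ax) (hK : KUNP C) {G : Gw C} (hG : G.Ax) {X : Ext} (hM : MstStmt X)
    (hN : NumStmt G X) (hC : ConcStmt G) (hS : Bl53.SUPJ G) (hE : Bl53.NUME G) :
    Chn.RootStmt C :=
  root_of A.man A.typ hG Gc84.gcStmt hM (Kill52.killStmt A hK) (End36.endStmt A hK hG) hN
    (read_of A hG (Kill52.killStmt A hK) hC X) (End36.oneStmt A hG)
    (opA A.man A.pd A.typ hG.typ) End36.ownStmt (Jk79.h42 A) (Jk79.jk A)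
    (Bl53.blStmt_of A (Form88.frm_of A) hG hS hE BlLnk.lnkEqStmt Noc95.nocStmt
      (Lh39.blowGStmt A) (Jk79.h42 A))

/-- the roots, for the invariants of a record of inputs -/
theorem root_vir (A : C.Ax) (hK : KUNP C) [Hb64.Ok C] (V : Vir C (Hb64.th C))
    (hV : V.I = Hb64.inst C) (emb : Emb.EmbStmt) (hyp : V.gw.END) (prod : V.gw.PROD)
    (hC : ConcStmt V.gw) (hM : MstStmt Ms2.Full) (hN : Ends.NumStmt) : Chn.RootStmt C :=
  root_gw A hK (V.ax (EmbA.emb_of_step V (Emb5.step_of V emb) Eqi.eqiStmt) hyp prod) hM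
    (EndsCl.numl V (Ends.numL_of hN EndsRk.rkL)) hC (Supj77.supj C V hV)
    (EndsCl.nume V (Ends.numE_of hN EndsRk.rkE))

/-- the class level statement `P` holds for all records of inputs -/
def AllV (P : ∀ {C : Coh.Th}, Gw C → Prop) : Prop :=
  ∀ (C : Coh.Th), C.Ax → KUNP C → ∀ [Hb64.Ok C] (V : Vir C (Hb64.th C)), V.I = Hb64.inst C → P V.gw

/-- **the roots** -/
theorem root_open (A : C.Ax) (hK : KUNP C) (pt : PD.Dg.PtStmt) (axS : Vb.AxSStmt)
    (deg0 : Vb.Deg0Stmt) (wdvv : Vb.WdvvStmt) (emb : Emb.EmbStmt) (hyp : AllV Gw.END)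
    (prod : AllV Gw.PROD) (conc : AllV ConcStmt) (mst : MstStmt Ms2.Full) (num : Ends.NumStmt) :
    Chn.RootStmt C :=
  haveI := Hb64.Ok.of_ax A
  root_vir A hK (PD.Dg.virOf C A.diag A.dbl A.bc1 pt Vb.ax0Stmt axS deg0 wdvv) rfl emb
    (hyp C A hK _ rfl) (prod C A hK _ rfl) (conc C A hK _ rfl) mst num

end Crest.Agent.X262.Gwb
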