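import Crest.Agent.X262.Gwb.Typ
import Crest.Agent.X262.End36.Main

/-!
# Row 262, GW seam (helper13): reading the invariants at the concave end

* `Pur.pb_C`, `Pur.pb_gy` : the restriction of the Gysin images to the end;
* `read_of`               : `ConcStmt` and `KillStmt` give `ReadStmt`.
-/

set_option autoImplicit false

noncomputable section

namespace Crest.Agent.X262.Gwb

open Crest.Agent.X277 Crest.Agent.X277.Lef Crest.Agent.X277.AN.G1 Crest.Agent.X277.BD
  Crest.Agent.X277.BD.Br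
open Crest.Agent.X262.Coh Crest.Agent.X262.Ult
open Crest.Agent.X262.Chn (Ge mor Om)
open Crest.Agent.X262.Gc84 (In Me)

variable {C : Th}

namespace Pur

variable {Y S B : SV} {i : Hom (Y.prod S) B} {m : Emb B} {n : Emb Y} (p : Pur i m n)

/-- along the end the factor `C` is generated by its first coordinate -/
theorem at_C (x : (Y.prod S).Pt) :
    At (m.T (p.e none)).bd (i.map x) ((m.T (p.e none)).y (p.f none)) := by
  obtain ⟨α, hα⟩ := End36.exists_at (m.reg (p.e none)) (i.map x)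
  obtain ⟨α, rfl⟩ := p.f.surjective α
  rcases α with _ | ⟨a, b⟩
  · exact hα
  exfalso
  obtain ⟨t, ht, h1, h2⟩ := p.dv.eqn x
  obtain ⟨a', ha'⟩ := End36.exists_at (m.reg (p.e (some (some p.jU)))) (i.map x)
  obtain ⟨b', hb'⟩ := End36.exists_at (m.reg (p.e (some none))) (i.map x)
  have h3 := (hα.sub (ha'.add hb')).ev_div_ne h1
  have h4 : i.p.π t = 0 := (h2 t ht).2 (by
    rw [div_self (inv_ne_zero h1.ne |> fun h => by simpa using h)]
    exact one_mem _)
  rw [p.cv, div_inv_eq_mul, ← div_mul_div_comm] at h3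
  unfold ev at h3
  rw [LP.v_mul _ (mul_mem (End36.div_mem_at ha' a) (End36.div_mem_at hb' b)) ht] at h3
  have h5 := i.ev_map ht
  unfold ev at h5
  rw [h5, h4, LP.v_zero, mul_zero] at h3
  exact h3 rfl

theorem pb_C (hM : C.MAN) : C.pb i (m.h C (p.e none)) = 0 := by
  rw [← hM.c1_zero]
  refine hM.c1_pb i _ (m.reg _).2 _ ⟨(m.T (p.e none)).y (p.f none), fun x g hg => ?_⟩
  have h1 := hg.ev_div_ne (p.at_C x)
  rw [i.ev_map (LP.mem_of_ne h1)] at h1
  simpa using (at_zero x).mul_unit h1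

variable (C) in
/-- the Gysin image, with a sign -/
def gy (_ : Pur i m n) (a : C.H Y) : C.H B := -C.push i (C.pb (fst Y S) a)

theorem pb_gy (h : C.Ax) (a : C.H Y) : C.pb i (p.gy C a) =
    C.pb (fst Y S) (n.h C p.jU * a) + C.pb (snd Y S) (C.hc S) * C.pb (fst Y S) a := by
  obtain ⟨q, q1, q2, q3⟩ := p.rsS
  obtain ⟨r, r1, r2, r3⟩ := p.rsY p.jU
  have e1 := End36.rs_pb_c1 h.man q2 q1.1 (m.reg _)
  have e2 := End36.rs_pb_c1 h.man q3 q1.1 (End36.reg_own S)
  have e3 := End36.rs_pb_c1 h.man r2 r1.1 (m.reg _)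
  have e4 := End36.rs_pb_c1 h.man r3 r1.1 (n.reg _)
  rw [gy, map_neg, h.bc2 i _ p.dv,
    h.man.c1_sub (m.reg _).2 (add_mem (m.reg _).2 (m.reg _).2),
    h.man.c1_add _ _ (m.reg _).2 _ (m.reg _).2, map_sub, map_add, p.pb_C h.man, e1, e3, ← e2, ← e4,
    map_mul]
  change _ = _ + C.pb (snd Y S) (C.c1 S (ownT S).bd) * _
  ring

theorem gy_AA (h : C.Ax) {a : C.H Y} (ha : a ∈ AA C Y) : p.gy C a ∈ AA C B := by
  have hd := p.dv.dim_eq
  refine neg_mem (Submodule.iSup_induction _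
    (motive := fun a => C.push i (C.pb (fst Y S) a) ∈ AA C B) ha (fun k a ha => ?_) (by simp)
    fun x y hx hy => by rw [map_add, map_add]; exact add_mem hx hy)
  exact Submodule.mem_iSup_of_mem (k + 1)
    (h.typ.push_typ h.man h.pd i (by omega) (by omega) (h.typ.pb _ a ha))

/-- the degree on `B` -/
def deg (d : n.J →₀ ℕ) : m.J →₀ ℕ :=
  Finsupp.equivFunOnFinite.symm fun j => (p.e.symm j).elim 0 fun o => o.elim 0 d

end Pur

variable {G : Gw C}

/-- **READ** -/
theorem read_of (h : C.Ax) (hG : G.Ax) (hK : KillStmt C) (hC : ConcStmt G) (X : Ext) :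
    ReadStmt G X := by
  intro K _ _ s hs m₁ hm₁ r M _ x hx hW d k l hk hl hl0 hr
  obtain ⟨D, D0, -, D3⟩ := End36.op_of_rel hG M.n m₁ (fun d₀ _ => (d₀ M.pur.jU : ℂ))
    (fun d' hd' l => by
      obtain ⟨k, hk⟩ := hd'
      exact End36.rel2 hG.dvz hG.low (End36.sum m₁ M.n) (j := Sum.inl k) (j' := Sum.inr M.pur.jU)
        (congrArg (C.c1 _) (M.pur_U k)) (fun h => hk (congrArg Nat.cast h)) l)
    d (C.pb (mor s.hm) x ::ₘ l)
  have D1 : ∀ d' ∈ D, ∀ k, d' M.pur.jU = d k := fun d' hd' k => by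
    exact_mod_cast (D0 d' hd' k).symm
  have hx' := h.typ.pb (mor s.hm) x hx
  have sq : C.pb (fst _ M.S) (C.pb (mor s.hm) x) = C.pb M.im (C.pb M.ζ x) :=
    (h.man.pb_sq M.im_ζ x).symm
  suffices H : ∀ d' ∈ D, G.op M.n d' (C.pb (mor s.hm) x ::ₘ l) ∈ ℂ ∙ C.pb (mor s.hm) x by
    obtain ⟨c, hc⟩ := Submodule.mem_span_singleton.1 (sum_mem H)
    exact ⟨c, D3.trans hc.symm⟩
  intro d' hd'
  obtain ⟨c, hc⟩ := eig_of_perp h.man h.pd h.typ hG.typ hs.dim (hs.h42 _) M.n d' hl hx'
    fun w _ hw => by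
      obtain ⟨c, c0, hc⟩ := hC M.im M.m M.n M.pur M.projS (M.pur.deg d') d'
        (by simp [Pur.deg]) (by simp [Pur.deg]) (fun k => by simp [Pur.deg])
        (by rw [D1 d' hd' k]; exact hk) (M.pur.gy C w, M.n.h C M.pur.jU * w, w)
        ((C.pb (mor s.hm) x ::ₘ l).map fun a => (M.pur.gy C a, M.n.h C M.pur.jU * a, a))
        (fun z hz => by
          rcases Multiset.mem_cons.1 hz with rfl | hz
          · exact M.pur.pb_gy h w
          · obtain ⟨a, -, rfl⟩ := Multiset.mem_map.1 hz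
            exact M.pur.pb_gy h a)
        (by rw [M.dimS, D1 d' hd' k, Multiset.card_map, Multiset.card_cons]; omega)
      simp only [Multiset.map_map, Function.comp_def, Multiset.map_id'] at hc
      refine (mul_eq_zero.1 (hc.symm.trans ?_)).resolve_left c0
      rw [Multiset.map_cons]
      have h1 : M.pur.gy C (C.pb (mor s.hm) x) ∈ M.W C x := by
        rw [Pur.gy, sq, h.pd.push_pb, h.pl0 _ _ M.pur.dv, mul_comm]
        exact neg_mem (((hK K s hs m₁ r M).2.2.2 x hx).2.1 _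
          (Submodule.mem_iSup_of_mem 1 (h.typ.c1 _ _ M.pur.dv.on)))
      have h2 := hW (M.pur.deg d') (l.map (M.pur.gy C)) (by rw [← M.pur_S]; simp [Pur.deg])
        (fun a ha => by
          obtain ⟨a, ha', rfl⟩ := Multiset.mem_map.1 ha
          exact M.pur.gy_AA h (hl a ha')) (by simpa using hl0) _ h1
      have h3 : ∀ y, C.itg M.B (M.pur.gy C w * (y * C.pb M.ζ x)) = 0 := fun y => by
        rw [Pur.gy, neg_mul, map_neg, h.pd.push_spec, map_mul (C.pb M.im), ← sq, mul_left_comm,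
          ← map_mul (C.pb (fst _ M.S)),
          mul_comm w, hw, map_zero, mul_zero, map_zero, neg_zero]
      refine Submodule.span_induction (p := fun z _ => C.itg M.B (M.pur.gy C w * z) = 0) ?_
        (by simp) (fun a b _ _ ha hb => by rw [mul_add, map_add, ha, hb, add_zero])
        (fun c a _ ha => by rw [mul_smul_comm, map_smul, ha, smul_zero]) h2
      rintro _ ⟨j, rfl | rfl⟩
      · exact h3 _
      · rw [← mul_assoc (M.lam C ^ j)]
        exact h3 _
  exact Submodule.mem_span_singleton.2 ⟨c, hc.symm⟩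

end Crest.Agent.X262.Gwb
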